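import Vale.Agent.P363.Chain
import Vale.Agent.P363.Ext.Growth.Excess
import Vale.Agent.P363.Ext.Growth.ExcessMajor
import Vale.Agent.P363.Ext.Growth.JumpPotBound

/-!
P363: a Coulomb molecule with a ground state whose density is not noninteracting ensemble
representable.
-/

namespace Vale.Agent.Results.P363.KohnShamFails

open Vale.Agent.P363

theorem result : Counterexample :=
  counterexample_of_excess
    (Ext.Growth.excess_of (Ext.Growth.exMajor_int Ext.Growth.potBound)
      (Ext.smallOne_of Ext.Small.groundSmall Ext.Small.smallProfiles)
      (Ext.ground (Ext.kernelSmall_of Ext.Small.groundSmall Ext.Small.smallProfiles)))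

end Vale.Agent.Results.P363.KohnShamFails
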